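import Mathlib

/-!
# P344: Morgenstern's bound survives `r < n` gates with unrestricted coefficients

Every linear circuit computing the unnormalised DFT `F_n` in which `r ≤ n` scalar gates are
completely unrestricted (and uncharged), while the other scalar gates have coefficients
`c_1, c_2, …` with `w = ∏ max 1 |c_i|`, and which has `a` addition/subtraction gates, satisfies
`n ^ (n - r) ≤ (n choose r) * (2 ^ a * w) ^ 2`.
-/

open Matrix Equiv

namespace Vale.Agent.Results.P344.HelpGates

/-- The root of unity `exp (2 π i / n)`. -/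
noncomputable def zeta (n : ℕ) : ℂ := Complex.exp (2 * Real.pi * Complex.I / n)

/-- The `j`-th coordinate of `F_n x`, as a function of the input vector `x`. -/
noncomputable def dftOut (n : ℕ) (j : Fin n) : (Fin n → ℂ) → ℂ :=
  fun x => ∑ k : Fin n, zeta n ^ (j.val * k.val) * x k

/-- `Circuit n a r w S`: there is a linear circuit (straight-line program) on the inputs
`x_0, …, x_{n-1}` and the constant `0` with exactly `a` gates of the form `u + v` or `u - v`,
exactly `r` scalar gates `c * u` that have been declared *free* (nothing is recorded about their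
coefficient), and further scalar gates `c * u` that have been declared *weighted*, `w` being the
product of `max 1 |c|` over the weighted gates; `S` is the set of all values available in the
circuit (the constant, the inputs, and the value of every gate), each value being regarded as a
function of the input vector. -/
inductive Circuit (n : ℕ) : ℕ → ℕ → ℝ → Set ((Fin n → ℂ) → ℂ) → Prop
  | start : Circuit n 0 0 1
      (insert (fun _ => 0) (Set.range fun k : Fin n => fun x : Fin n → ℂ => x k))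
  | add {a r : ℕ} {w : ℝ} {S : Set ((Fin n → ℂ) → ℂ)} {u v : (Fin n → ℂ) → ℂ} :
      Circuit n a r w S → u ∈ S → v ∈ S → Circuit n (a + 1) r w (insert (fun x => u x + v x) S)
  | sub {a r : ℕ} {w : ℝ} {S : Set ((Fin n → ℂ) → ℂ)} {u v : (Fin n → ℂ) → ℂ} :
      Circuit n a r w S → u ∈ S → v ∈ S → Circuit n (a + 1) r w (insert (fun x => u x - v x) S)
  | smulFree {a r : ℕ} {w : ℝ} {S : Set ((Fin n → ℂ) → ℂ)} {u : (Fin n → ℂ) → ℂ} (c : ℂ) :
      Circuit n a r w S → u ∈ S → Circuit n a (r + 1) w (insert (fun x => c * u x) S)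
  | smulWeighted {a r : ℕ} {w : ℝ} {S : Set ((Fin n → ℂ) → ℂ)} {u : (Fin n → ℂ) → ℂ} (c : ℂ) :
      Circuit n a r w S → u ∈ S → Circuit n a r (w * max 1 ‖c‖) (insert (fun x => c * u x) S)

/-! ## Cauchy–Binet, indexed by functions -/

section CB
variable {R : Type*} [CommRing R] {k n : ℕ}

lemma cb1 (A : Matrix (Fin k) (Fin n) R) (B : Matrix (Fin n) (Fin k) R) :
    det (A * B) = ∑ p : Fin k → Fin n, (∏ i, B (p i) i) * det (A.submatrix id p) := by
  classical
  have h1 : det (A * B) = (detRowAlternating : (Fin k → R) [⋀^Fin k]→ₗ[R] R)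
      (fun i => ∑ j : Fin n, B j i • Aᵀ j) := by
    rw [← det_transpose]
    show det _ = det _
    congr 1
    ext i l
    simp only [transpose_apply, mul_apply, of_apply, Finset.sum_apply, Pi.smul_apply, smul_eq_mul]
    apply Finset.sum_congr rfl
    intro j _
    ring
  rw [h1]
  have h2 := (detRowAlternating : (Fin k → R) [⋀^Fin k]→ₗ[R] R).toMultilinearMap.map_sum
    (fun (i : Fin k) (j : Fin n) => B j i • Aᵀ j)
  simp only [AlternatingMap.coe_multilinearMap] at h2
  rw [h2]
  apply Finset.sum_congr rfl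
  intro p _
  have h3 := (detRowAlternating : (Fin k → R) [⋀^Fin k]→ₗ[R] R).toMultilinearMap.map_smul_univ
    (fun i => B (p i) i) (fun i => Aᵀ (p i))
  simp only [AlternatingMap.coe_multilinearMap] at h3
  rw [h3, smul_eq_mul]
  congr 1
  rw [← det_transpose (A.submatrix id p)]
  rfl

lemma cb2 (A : Matrix (Fin k) (Fin n) R) (B : Matrix (Fin n) (Fin k) R) :
    ∑ p : Fin k → Fin n, det (A.submatrix id p) * det (B.submatrix p id)
      = (k.factorial : R) * det (A * B) := by
  classical
  have h1 : ∀ p : Fin k → Fin n, det (A.submatrix id p) * det (B.submatrix p id)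
      = ∑ τ : Perm (Fin k), det (A.submatrix id p) * ((Perm.sign τ : ℤ) : R) *
          ∏ i, B (p (τ i)) i := by
    intro p
    rw [det_apply' (B.submatrix p id), Finset.mul_sum]
    apply Finset.sum_congr rfl
    intro τ _
    simp only [submatrix_apply, id_eq]
    ring
  simp_rw [h1]
  rw [Finset.sum_comm]
  have h2 : ∀ τ : Perm (Fin k), ∑ p : Fin k → Fin n, det (A.submatrix id p) *
      ((Perm.sign τ : ℤ) : R) * ∏ i, B (p (τ i)) i = det (A * B) := by
    intro τ
    rw [cb1]
    -- reindex p ↦ p ∘ τ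
    rw [← Equiv.sum_comp (τ.arrowCongr (Equiv.refl (Fin n)))
      (fun p : Fin k → Fin n => det (A.submatrix id p) * ((Perm.sign τ : ℤ) : R) *
        ∏ i, B (p (τ i)) i)]
    apply Finset.sum_congr rfl
    intro p _
    have e1 : ∀ i, (τ.arrowCongr (Equiv.refl (Fin n))) p (τ i) = p i := by
      intro i
      simp [Equiv.arrowCongr]
    have e2 : A.submatrix id ((τ.arrowCongr (Equiv.refl (Fin n))) p)
        = (A.submatrix id p).submatrix id (τ.symm) := by
      ext a b
      simp [Equiv.arrowCongr]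
    simp_rw [e1]
    rw [e2, det_permute']
    have e3 : ((Perm.sign τ.symm : ℤ) : R) * ((Perm.sign τ : ℤ) : R) = 1 := by
      rw [Perm.sign_symm]
      rcases Int.units_eq_one_or (Perm.sign τ) with h | h <;> simp [h]
    calc ((Perm.sign τ.symm : ℤ) : R) * (A.submatrix id p).det * ((Perm.sign τ : ℤ) : R) *
          ∏ i, B (p i) i
        = (((Perm.sign τ.symm : ℤ) : R) * ((Perm.sign τ : ℤ) : R)) *
          ((∏ i, B (p i) i) * (A.submatrix id p).det) := by ring
      _ = _ := by rw [e3, one_mul]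
  simp_rw [h2]
  simp [Finset.sum_const, Fintype.card_perm]


end CB

section Minor
variable {k n : ℕ}

/-- sum of squared moduli of all `k × k` row-minors -/
noncomputable def minorSum (X : Matrix (Fin n) (Fin k) ℂ) : ℝ :=
  ∑ p : Fin k → Fin n, ‖det (X.submatrix p id)‖ ^ 2

lemma minorSum_eq (X : Matrix (Fin n) (Fin k) ℂ) :
    ((minorSum X : ℝ) : ℂ) = (k.factorial : ℂ) * det (Xᴴ * X) := by
  rw [← cb2]
  unfold minorSum
  push_cast
  apply Finset.sum_congr rfl
  intro p _
  have : Xᴴ.submatrix id p = (X.submatrix p id)ᴴ := by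
    ext a b; simp [conjTranspose_apply]
  rw [this, det_conjTranspose]
  rw [← Complex.conj_mul']
  rfl

lemma minorSum_mul (F : Matrix (Fin n) (Fin n) ℂ) (c : ℝ) (hF : Fᴴ * F = (c : ℂ) • (1 : Matrix (Fin n) (Fin n) ℂ))
    (U : Matrix (Fin n) (Fin k) ℂ) : minorSum (F * U) = c ^ k * minorSum U := by
  have h1 := minorSum_eq (F * U)
  have h2 := minorSum_eq U
  have h3 : (F * U)ᴴ * (F * U) = (c : ℂ) • (Uᴴ * U) := by
    rw [conjTranspose_mul, Matrix.mul_assoc, ← Matrix.mul_assoc Fᴴ, hF]
    simp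
  rw [h3, det_smul, Fintype.card_fin] at h1
  have : ((minorSum (F * U) : ℝ) : ℂ) = ((c ^ k * minorSum U : ℝ) : ℂ) := by
    rw [h1]; push_cast; rw [h2]; ring
  exact_mod_cast this

open scoped ComplexOrder in
lemma minorSum_pos (U : Matrix (Fin n) (Fin k) ℂ) (hU : ∀ v : Fin k → ℂ, U *ᵥ v = 0 → v = 0) :
    0 < minorSum U := by
  have hnn : 0 ≤ minorSum U := Finset.sum_nonneg (fun _ _ => by positivity)
  rcases hnn.lt_or_eq with h | h
  · exact h
  · exfalso
    have h2 := minorSum_eq U
    rw [← h] at h2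
    have hdet : det (Uᴴ * U) = 0 := by
      have hk : (k.factorial : ℂ) ≠ 0 := by exact_mod_cast k.factorial_ne_zero
      have : (k.factorial : ℂ) * det (Uᴴ * U) = 0 := by rw [← h2]; simp
      exact (mul_eq_zero.1 this).resolve_left hk
    obtain ⟨v, hv0, hv⟩ := Matrix.exists_mulVec_eq_zero_iff.2 hdet
    apply hv0
    apply hU
    have h3 : star (U *ᵥ v) ⬝ᵥ (U *ᵥ v) = 0 := by
      rw [star_mulVec, dotProduct_mulVec, vecMul_vecMul, ← dotProduct_mulVec, hv]
      simp
    exact dotProduct_star_self_eq_zero.1 h3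

lemma det_submatrix_not_inj (X : Matrix (Fin n) (Fin k) ℂ) (p : Fin k → Fin n)
    (hp : ¬ Function.Injective p) : det (X.submatrix p id) = 0 := by
  unfold Function.Injective at hp
  push Not at hp
  obtain ⟨i, j, hij, hne⟩ := hp
  apply det_zero_of_row_eq hne
  funext b
  simp [hij]

lemma key_ineq (F : Matrix (Fin n) (Fin n) ℂ) (c : ℝ) (hc : 0 ≤ c)
    (hF : Fᴴ * F = (c : ℂ) • (1 : Matrix (Fin n) (Fin n) ℂ))
    (U : Matrix (Fin n) (Fin k) ℂ) (hU : ∀ v : Fin k → ℂ, U *ᵥ v = 0 → v = 0)
    (B0 : ℝ) (hB0 : 0 ≤ B0)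
    (hpot : ∀ M : ℝ, (∀ p : Fin k → Fin n, ‖det (U.submatrix p id)‖ ≤ M) →
      ∀ p : Fin k → Fin n, ‖det ((F * U).submatrix p id)‖ ≤ B0 * M) :
    c ^ k ≤ (n.choose k : ℝ) * B0 ^ 2 := by
  classical
  have hpos := minorSum_pos U hU
  have hne : Nonempty (Fin k → Fin n) := by
    by_contra hemp
    rw [not_nonempty_iff] at hemp
    unfold minorSum at hpos
    simp at hpos
  obtain ⟨ps, hps⟩ := Finite.exists_max (fun p : Fin k → Fin n => ‖det (U.submatrix p id)‖)
  set M := ‖det (U.submatrix ps id)‖ with hM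
  have hMpos : 0 < M := by
    rcases (norm_nonneg (det (U.submatrix ps id))).lt_or_eq with h | h
    · exact h
    · exfalso
      have : minorSum U = 0 := by
        unfold minorSum
        apply Finset.sum_eq_zero
        intro p _
        have h1 := hps p
        have h2 : ‖det (U.submatrix p id)‖ = 0 := le_antisymm (by rw [h]; exact h1) (norm_nonneg _)
        rw [h2]; norm_num
      linarith
  have hinj : Function.Injective ps := by
    by_contra hcon
    have := det_submatrix_not_inj U ps hcon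
    rw [hM, this, norm_zero] at hMpos
    exact lt_irrefl _ hMpos
  -- (2)
  have h2 : (k.factorial : ℝ) * M ^ 2 ≤ minorSum U := by
    have hmapinj : Function.Injective (fun τ : Perm (Fin k) => ps ∘ τ) := by
      intro τ τ' h
      ext i
      have := congrFun h i
      simp only [Function.comp] at this
      exact congrArg Fin.val (hinj this)
    have e1 : ∑ p ∈ (Finset.univ : Finset (Perm (Fin k))).image (fun τ : Perm (Fin k) => ps ∘ τ),
        ‖det (U.submatrix p id)‖ ^ 2 = (k.factorial : ℝ) * M ^ 2 := by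
      rw [Finset.sum_image (fun x _ y _ h => hmapinj h)]
      have : ∀ τ : Perm (Fin k), ‖det (U.submatrix (ps ∘ τ) id)‖ ^ 2 = M ^ 2 := by
        intro τ
        have e : U.submatrix (ps ∘ τ) id = (U.submatrix ps id).submatrix τ id := by
          ext a b; simp
        rw [e, det_permute]
        rcases Int.units_eq_one_or (Perm.sign τ) with h | h <;> simp [h, hM]
      simp_rw [this]
      simp [Finset.sum_const, Fintype.card_perm]
    rw [← e1]
    unfold minorSum
    apply Finset.sum_le_sum_of_subset_of_nonneg (Finset.subset_univ _)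
    intro p _ _
    positivity
  -- (1)
  have h1 : minorSum (F * U) ≤ (n.descFactorial k : ℝ) * (B0 * M) ^ 2 := by
    unfold minorSum
    have hb := hpot M hps
    have e1 : ∑ p : Fin k → Fin n, ‖det ((F * U).submatrix p id)‖ ^ 2
        = ∑ p ∈ Finset.univ.filter (fun p : Fin k → Fin n => Function.Injective p),
          ‖det ((F * U).submatrix p id)‖ ^ 2 := by
      symm
      apply Finset.sum_subset (Finset.subset_univ _)
      intro p _ hp
      rw [Finset.mem_filter] at hp
      have hp' : ¬ Function.Injective p := fun h => hp ⟨Finset.mem_univ _, h⟩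
      rw [det_submatrix_not_inj _ p hp']
      simp
    rw [e1]
    have hcard : (Finset.univ.filter (fun p : Fin k → Fin n => Function.Injective p)).card
        = n.descFactorial k := by
      rw [← Fintype.card_subtype]
      rw [Fintype.card_congr (Equiv.subtypeInjectiveEquivEmbedding (Fin k) (Fin n))]
      rw [Fintype.card_embedding_eq]
      simp
    rw [← hcard]
    have := Finset.sum_le_card_nsmul (Finset.univ.filter (fun p : Fin k → Fin n => Function.Injective p))
      (fun p => ‖det ((F * U).submatrix p id)‖ ^ 2) ((B0 * M) ^ 2) (by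
        intro p _
        apply pow_le_pow_left₀ (norm_nonneg _) (hb p))
    simpa [nsmul_eq_mul] using this
  rw [minorSum_mul F c hF U] at h1
  have h3 : c ^ k * ((k.factorial : ℝ) * M ^ 2) ≤ (n.descFactorial k : ℝ) * (B0 * M) ^ 2 :=
    le_trans (mul_le_mul_of_nonneg_left h2 (pow_nonneg hc k)) h1
  rw [Nat.descFactorial_eq_factorial_mul_choose] at h3
  push_cast at h3
  have hk : (0 : ℝ) < (k.factorial : ℝ) * M ^ 2 := by positivity
  have h4 : c ^ k * ((k.factorial : ℝ) * M ^ 2) ≤
      ((n.choose k : ℝ) * B0 ^ 2) * ((k.factorial : ℝ) * M ^ 2) := by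
    calc c ^ k * ((k.factorial : ℝ) * M ^ 2) ≤ _ := h3
      _ = _ := by ring
  exact le_of_mul_le_mul_right h4 hk

/-- all `k`-tuples of vectors of `T`, restricted to the columns of `U`, have determinant at most `B` -/
def Pot (U : Matrix (Fin n) (Fin k) ℂ) (T : Set (Fin n → ℂ)) (B : ℝ) : Prop :=
  ∀ f : Fin k → (Fin n → ℂ), (∀ a, f a ∈ T) → ‖det ((Matrix.of f : Matrix (Fin k) (Fin n) ℂ) * U)‖ ≤ B

lemma of_update_mul (U : Matrix (Fin n) (Fin k) ℂ) (f : Fin k → (Fin n → ℂ)) (a0 : Fin k)
    (u : Fin n → ℂ) :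
    (Matrix.of (Function.update f a0 u) : Matrix (Fin k) (Fin n) ℂ) * U
      = updateRow ((Matrix.of f : Matrix (Fin k) (Fin n) ℂ) * U) a0 (u ᵥ* U) := by
  ext a b
  by_cases h : a = a0
  · subst h
    simp [Matrix.mul_apply, vecMul, dotProduct]
  · simp [Matrix.mul_apply, updateRow_apply, h]

lemma Pot.step {U : Matrix (Fin n) (Fin k) ℂ} {T : Set (Fin n → ℂ)} {B : ℝ} (hP : Pot U T B)
    (v : Fin n → ℂ) (B' : ℝ) (hBB : B ≤ B') (hB' : 0 ≤ B')
    (hv : ∀ (f : Fin k → (Fin n → ℂ)) (a0 : Fin k), (∀ a, a ≠ a0 → f a ∈ T) → f a0 = v →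
      ‖det ((Matrix.of f : Matrix (Fin k) (Fin n) ℂ) * U)‖ ≤ B') :
    Pot U (insert v T) B' := by
  intro f hf
  by_cases h : ∀ a, f a ∈ T
  · exact le_trans (hP f h) hBB
  · push Not at h
    obtain ⟨a0, ha0⟩ := h
    have hfa0 : f a0 = v := (Set.mem_insert_iff.1 (hf a0)).resolve_right ha0
    by_cases h2 : ∀ a, a ≠ a0 → f a ∈ T
    · exact hv f a0 h2 hfa0
    · push Not at h2
      obtain ⟨a1, hne, ha1⟩ := h2
      have hfa1 : f a1 = v := (Set.mem_insert_iff.1 (hf a1)).resolve_right ha1
      have : det ((Matrix.of f : Matrix (Fin k) (Fin n) ℂ) * U) = 0 := by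
        apply det_zero_of_row_eq hne
        funext b
        simp [Matrix.mul_apply, hfa0, hfa1]
      rw [this, norm_zero]
      exact hB'

lemma Pot.step_lin {U : Matrix (Fin n) (Fin k) ℂ} {T : Set (Fin n → ℂ)} {B : ℝ} (hP : Pot U T B)
    (hB : 0 ≤ B) {u1 u2 : Fin n → ℂ} (h1 : u1 ∈ T) (h2 : u2 ∈ T) (s : ℂ) (hs : ‖s‖ = 1) :
    Pot U (insert (u1 + s • u2) T) (2 * B) := by
  apply hP.step _ _ (by linarith) (by linarith)
  intro f a0 hf hfa0
  have e : f = Function.update f a0 (u1 + s • u2) := by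
    rw [← hfa0]; simp
  rw [e, of_update_mul, add_vecMul, smul_vecMul, det_updateRow_add, det_updateRow_smul,
    ← of_update_mul, ← of_update_mul]
  have b1 : ‖det ((Matrix.of (Function.update f a0 u1) : Matrix (Fin k) (Fin n) ℂ) * U)‖ ≤ B := by
    apply hP
    intro a
    by_cases h : a = a0
    · subst h; simpa using h1
    · simpa [Function.update_of_ne h] using hf a h
  have b2 : ‖det ((Matrix.of (Function.update f a0 u2) : Matrix (Fin k) (Fin n) ℂ) * U)‖ ≤ B := by
    apply hP
    intro a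
    by_cases h : a = a0
    · subst h; simpa using h2
    · simpa [Function.update_of_ne h] using hf a h
  calc _ ≤ ‖det ((Matrix.of (Function.update f a0 u1) : Matrix (Fin k) (Fin n) ℂ) * U)‖ +
        ‖s * det ((Matrix.of (Function.update f a0 u2) : Matrix (Fin k) (Fin n) ℂ) * U)‖ :=
          norm_add_le _ _
    _ ≤ B + 1 * B := by
        rw [norm_mul, hs]
        linarith
    _ = 2 * B := by ring

lemma Pot.step_smul {U : Matrix (Fin n) (Fin k) ℂ} {T : Set (Fin n → ℂ)} {B : ℝ} (hP : Pot U T B)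
    (hB : 0 ≤ B) {u : Fin n → ℂ} (h1 : u ∈ T) (c : ℂ) :
    Pot U (insert (c • u) T) (B * max 1 ‖c‖) := by
  have hm : (1 : ℝ) ≤ max 1 ‖c‖ := le_max_left _ _
  apply hP.step _ _ (by nlinarith) (by positivity)
  intro f a0 hf hfa0
  have e : f = Function.update f a0 (c • u) := by
    rw [← hfa0]; simp
  rw [e, of_update_mul, smul_vecMul, det_updateRow_smul, ← of_update_mul]
  have b1 : ‖det ((Matrix.of (Function.update f a0 u) : Matrix (Fin k) (Fin n) ℂ) * U)‖ ≤ B := by
    apply hP
    intro a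
    by_cases h : a = a0
    · subst h; simpa using h1
    · simpa [Function.update_of_ne h] using hf a h
  rw [norm_mul]
  calc ‖c‖ * _ ≤ max 1 ‖c‖ * B := mul_le_mul (le_max_right _ _) b1 (norm_nonneg _) (by positivity)
    _ = B * max 1 ‖c‖ := by ring

lemma Pot.step_zero {U : Matrix (Fin n) (Fin k) ℂ} {T : Set (Fin n → ℂ)} {B : ℝ} (hP : Pot U T B)
    (hB : 0 ≤ B) (v : Fin n → ℂ) (hv : v ᵥ* U = 0) : Pot U (insert v T) B := by
  apply hP.step _ _ le_rfl hB
  intro f a0 _ hfa0
  have : det ((Matrix.of f : Matrix (Fin k) (Fin n) ℂ) * U) = 0 := by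
    apply det_eq_zero_of_row_eq_zero a0
    intro b
    have := congrFun hv b
    simp only [vecMul, dotProduct, Pi.zero_apply] at this
    simp [Matrix.mul_apply, hfa0, this]
  rw [this, norm_zero]
  exact hB

/-- the DFT matrix -/
noncomputable def Fmat (n : ℕ) : Matrix (Fin n) (Fin n) ℂ := Matrix.of fun j k => zeta n ^ (j.val * k.val)

lemma Fmat_orth (n : ℕ) (hn : 0 < n) :
    (Fmat n)ᴴ * Fmat n = ((n : ℝ) : ℂ) • (1 : Matrix (Fin n) (Fin n) ℂ) := by
  have hζ : IsPrimitiveRoot (zeta n) n := Complex.isPrimitiveRoot_exp n hn.ne'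
  have hnorm : ‖zeta n‖ = 1 := hζ.norm'_eq_one hn.ne'
  have hconj : star (zeta n) * zeta n = 1 := by
    have : (starRingEnd ℂ) (zeta n) * zeta n = ((‖zeta n‖ ^ 2 : ℝ) : ℂ) := by
      rw [Complex.conj_mul']; push_cast; ring
    rw [hnorm] at this
    simpa using this
  ext a b
  simp only [Matrix.mul_apply, conjTranspose_apply, Fmat, of_apply, Matrix.smul_apply, Matrix.one_apply,
    smul_eq_mul]
  by_cases hab : a = b
  · subst hab
    have : ∀ j : Fin n, star (zeta n ^ (j.val * a.val)) * zeta n ^ (j.val * a.val) = 1 := by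
      intro j
      rw [star_pow, ← mul_pow, hconj, one_pow]
    simp_rw [this]
    simp
  · rw [if_neg hab, mul_zero]
    set η : ℂ := star (zeta n ^ a.val) * zeta n ^ b.val with hη
    have hterm : ∀ j : Fin n, star (zeta n ^ (j.val * a.val)) * zeta n ^ (j.val * b.val)
        = η ^ j.val := by
      intro j
      rw [hη, mul_pow, star_pow, star_pow, ← pow_mul, ← pow_mul, mul_comm a.val,
        mul_comm b.val]
    simp_rw [hterm]
    rw [Fin.sum_univ_eq_sum_range (fun j => η ^ j) n]
    have hηn : η ^ n = 1 := by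
      rw [hη, mul_pow, star_pow, ← pow_mul, ← pow_mul, mul_comm a.val, mul_comm b.val,
        pow_mul, pow_mul, hζ.pow_eq_one, ← star_pow, hζ.pow_eq_one]
      simp
    have hη1 : η ≠ 1 := by
      intro h1
      apply hab
      have h2 : zeta n ^ a.val = zeta n ^ b.val := by
        have h3 : star (zeta n ^ a.val) * zeta n ^ a.val = 1 := by
          rw [star_pow, ← mul_pow, hconj, one_pow]
        have hne : star (zeta n ^ a.val) ≠ 0 := by
          intro h0
          rw [h0, zero_mul] at h3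
          exact zero_ne_one h3
        apply mul_left_cancel₀ hne
        rw [h3, ← hη, h1]
      exact Fin.ext (hζ.pow_inj a.2 b.2 h2)
    have hgeom := mul_neg_geom_sum η n
    rw [hηn, sub_self] at hgeom
    rcases mul_eq_zero.1 hgeom with h | h
    · exact absurd (sub_eq_zero.1 h).symm hη1
    · exact h

lemma exists_U {n : ℕ} (G : Finset (Fin n → ℂ)) (k : ℕ) (hk : k + G.card ≤ n) :
    ∃ U : Matrix (Fin n) (Fin k) ℂ, (∀ g ∈ G, g ᵥ* U = 0) ∧ ∀ v : Fin k → ℂ, U *ᵥ v = 0 → v = 0 := by
  classical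
  set Γ : (Fin n → ℂ) →ₗ[ℂ] (G → ℂ) :=
    { toFun := fun x g => g.1 ⬝ᵥ x
      map_add' := by intro x y; funext g; simp [dotProduct_add]
      map_smul' := by intro c x; funext g; simp [dotProduct_smul] } with hΓ
  have h1 := LinearMap.finrank_range_add_finrank_ker Γ
  have h2 : Module.finrank ℂ (LinearMap.range Γ) ≤ G.card := by
    have := Submodule.finrank_le (LinearMap.range Γ)
    simpa using this
  have h3 : Module.finrank ℂ (Fin n → ℂ) = n := by simp
  have hle : k ≤ Module.finrank ℂ (LinearMap.ker Γ) := by omega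
  set b := Module.finBasis ℂ (LinearMap.ker Γ) with hb
  set vec : Fin k → (Fin n → ℂ) := fun c => (b (Fin.castLE hle c) : Fin n → ℂ) with hvec
  have hli : LinearIndependent ℂ vec := by
    have l1 : LinearIndependent ℂ (fun c : Fin k => b (Fin.castLE hle c)) :=
      b.linearIndependent.comp _ (Fin.castLE_injective hle)
    exact l1.map' (LinearMap.ker Γ).subtype (Submodule.ker_subtype _)
  refine ⟨Matrix.of (fun i c => vec c i), ?_, ?_⟩
  · intro g hg
    funext c
    have hmem : vec c ∈ LinearMap.ker Γ := (b (Fin.castLE hle c)).2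
    rw [LinearMap.mem_ker] at hmem
    have := congrFun hmem ⟨g, hg⟩
    simpa [vecMul, dotProduct, hΓ] using this
  · intro v hv
    have hsum : ∑ c, v c • vec c = 0 := by
      funext i
      have := congrFun hv i
      simp only [mulVec, dotProduct, of_apply, Pi.zero_apply] at this
      simp only [Finset.sum_apply, Pi.smul_apply, smul_eq_mul, Pi.zero_apply]
      rw [← this]
      apply Finset.sum_congr rfl
      intro c _
      ring
    funext c
    exact Fintype.linearIndependent_iff.1 hli v hsum c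


/-! ## The invariant carried along a circuit -/

/-- the invariant -/
def Inv (n : ℕ) (a r : ℕ) (w : ℝ) (S : Set ((Fin n → ℂ) → ℂ)) : Prop :=
  1 ≤ w ∧ ∃ (T : Set (Fin n → ℂ)) (G : Finset (Fin n → ℂ)), G.card ≤ r ∧
    (∀ u ∈ S, ∃ v ∈ T, u = fun x => v ⬝ᵥ x) ∧
    ∀ (k : ℕ) (U : Matrix (Fin n) (Fin k) ℂ) (M : ℝ), 0 ≤ M → (∀ g ∈ G, g ᵥ* U = 0) →
      (∀ p : Fin k → Fin n, ‖det (U.submatrix p id)‖ ≤ M) → Pot U T (2 ^ a * w * M)

lemma inv_start (n : ℕ) : Inv n 0 0 1
    (insert (fun _ => 0) (Set.range fun k : Fin n => fun x : Fin n → ℂ => x k)) := by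
  classical
  refine ⟨le_rfl, insert 0 (Set.range fun i : Fin n => (Pi.single i 1 : Fin n → ℂ)), ∅, by simp,
    ?_, ?_⟩
  · intro u hu
    rcases Set.mem_insert_iff.1 hu with h | ⟨i, hi⟩
    · exact ⟨0, Set.mem_insert _ _, by rw [h]; funext x; simp⟩
    · refine ⟨Pi.single i 1, Set.mem_insert_of_mem _ ⟨i, rfl⟩, ?_⟩
      rw [← hi]; funext x; simp
  · intro k U M hM _ hU
    have h0 : Pot U (Set.range fun i : Fin n => (Pi.single i 1 : Fin n → ℂ)) M := by
      intro f hf
      choose p hp using hf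
      have : (Matrix.of f : Matrix (Fin k) (Fin n) ℂ) * U = U.submatrix p id := by
        ext a b
        simp only [Matrix.mul_apply, of_apply, submatrix_apply, id_eq]
        rw [← hp a]
        simp [Pi.single_apply]
      rw [this]
      exact hU p
    have := h0.step_zero hM 0 (by simp)
    simpa using this

lemma inv_lin {n a r : ℕ} {w : ℝ} {S : Set ((Fin n → ℂ) → ℂ)} {u v : (Fin n → ℂ) → ℂ}
    (h : Inv n a r w S) (hu : u ∈ S) (hv : v ∈ S) (s : ℂ) (hs : ‖s‖ = 1) :
    Inv n (a + 1) r w (insert (fun x => u x + s * v x) S) := by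
  obtain ⟨hw, T, G, hG, hS, hP⟩ := h
  obtain ⟨v1, hv1, rfl⟩ := hS u hu
  obtain ⟨v2, hv2, rfl⟩ := hS v hv
  refine ⟨hw, insert (v1 + s • v2) T, G, hG, ?_, ?_⟩
  · intro u' hu'
    rcases Set.mem_insert_iff.1 hu' with h | h
    · refine ⟨_, Set.mem_insert _ _, ?_⟩
      rw [h]; funext x
      simp [add_dotProduct, smul_dotProduct]
    · obtain ⟨v', hv', e⟩ := hS u' h
      exact ⟨v', Set.mem_insert_of_mem _ hv', e⟩
  · intro k U M hM hGU hU
    have h1 := hP k U M hM hGU hU
    have h2 := h1.step_lin (by positivity) hv1 hv2 s hs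
    have e : 2 * (2 ^ a * w * M) = 2 ^ (a + 1) * w * M := by ring
    rwa [e] at h2

lemma inv_free {n a r : ℕ} {w : ℝ} {S : Set ((Fin n → ℂ) → ℂ)} {u : (Fin n → ℂ) → ℂ}
    (h : Inv n a r w S) (hu : u ∈ S) (c : ℂ) :
    Inv n a (r + 1) w (insert (fun x => c * u x) S) := by
  classical
  obtain ⟨hw, T, G, hG, hS, hP⟩ := h
  obtain ⟨v1, hv1, rfl⟩ := hS u hu
  refine ⟨hw, insert (c • v1) T, insert (c • v1) G,
    le_trans (Finset.card_insert_le _ _) (by omega), ?_, ?_⟩
  · intro u' hu'
    rcases Set.mem_insert_iff.1 hu' with h | h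
    · refine ⟨_, Set.mem_insert _ _, ?_⟩
      rw [h]; funext x
      simp [smul_dotProduct]
    · obtain ⟨v', hv', e⟩ := hS u' h
      exact ⟨v', Set.mem_insert_of_mem _ hv', e⟩
  · intro k U M hM hGU hU
    have h1 := hP k U M hM (fun g hg => hGU g (Finset.mem_insert_of_mem hg)) hU
    exact h1.step_zero (by positivity) _ (hGU _ (Finset.mem_insert_self _ _))

lemma inv_weighted {n a r : ℕ} {w : ℝ} {S : Set ((Fin n → ℂ) → ℂ)} {u : (Fin n → ℂ) → ℂ}
    (h : Inv n a r w S) (hu : u ∈ S) (c : ℂ) :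
    Inv n a r (w * max 1 ‖c‖) (insert (fun x => c * u x) S) := by
  obtain ⟨hw, T, G, hG, hS, hP⟩ := h
  obtain ⟨v1, hv1, rfl⟩ := hS u hu
  have hm : (1 : ℝ) ≤ max 1 ‖c‖ := le_max_left _ _
  refine ⟨by nlinarith, insert (c • v1) T, G, hG, ?_, ?_⟩
  · intro u' hu'
    rcases Set.mem_insert_iff.1 hu' with h | h
    · refine ⟨_, Set.mem_insert _ _, ?_⟩
      rw [h]; funext x
      simp [smul_dotProduct]
    · obtain ⟨v', hv', e⟩ := hS u' h
      exact ⟨v', Set.mem_insert_of_mem _ hv', e⟩
  · intro k U M hM hGU hU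
    have h1 := hP k U M hM hGU hU
    have h2 := h1.step_smul (by positivity) hv1 c
    have e : 2 ^ a * w * M * max 1 ‖c‖ = 2 ^ a * (w * max 1 ‖c‖) * M := by ring
    rwa [e] at h2

lemma inv_of_circuit {n a r : ℕ} {w : ℝ} {S : Set ((Fin n → ℂ) → ℂ)} (h : Circuit n a r w S) :
    Inv n a r w S := by
  induction h with
  | start => exact inv_start n
  | add _ hu hv ih =>
    have := inv_lin ih hu hv 1 (by simp)
    simpa using this
  | sub _ hu hv ih =>
    have := inv_lin ih hu hv (-1) (by simp)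
    simpa [sub_eq_add_neg] using this
  | smulFree c _ hu ih => exact inv_free ih hu c
  | smulWeighted c _ hu ih => exact inv_weighted ih hu c

end Minor

/-- main inequality -/
theorem main_ineq (n a r : ℕ) (w : ℝ) (S : Set ((Fin n → ℂ) → ℂ)) (hn : 1 ≤ n) (hr : r ≤ n)
    (hC : Circuit n a r w S) (hout : ∀ j : Fin n, dftOut n j ∈ S) :
    1 ≤ w ∧ (n : ℝ) ^ (n - r) ≤ (n.choose r : ℝ) * (2 ^ a * w) ^ 2 := by
  classical
  obtain ⟨hw, T, G, hG, hS, hP⟩ := inv_of_circuit hC
  refine ⟨hw, ?_⟩
  have hrow : ∀ j : Fin n, (fun k => Fmat n j k) ∈ T := by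
    intro j
    obtain ⟨v, hv, e⟩ := hS _ (hout j)
    have : v = fun k => Fmat n j k := by
      funext k
      have := congrFun e (Pi.single k 1)
      simp only [dftOut, dotProduct_single, mul_one] at this
      rw [← this]
      simp [Fmat, Pi.single_apply]
    rwa [← this]
  obtain ⟨U, hU0, hUinj⟩ := exists_U G (n - r) (by omega)
  have key := key_ineq (Fmat n) (n : ℝ) (by positivity) (Fmat_orth n hn) U hUinj (2 ^ a * w)
    (by positivity) (by
      intro M hM p
      have hM0 : 0 ≤ M := le_trans (norm_nonneg _) (hM p)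
      have h1 := hP (n - r) U M hM0 hU0 hM (fun a => fun k => Fmat n (p a) k) (fun a => hrow (p a))
      have e : (Fmat n * U).submatrix p id
          = (Matrix.of (fun a => fun k => Fmat n (p a) k) : Matrix (Fin (n - r)) (Fin n) ℂ) * U := by
        ext a b
        simp [Matrix.mul_apply]
      rw [e]
      exact h1)
  rwa [Nat.choose_symm hr] at key

/-- **Result.**  Let a linear circuit compute all `n` coordinates of `F_n x`.  Declare any `r ≤ n`
of its scalar gates free; let `a` be the number of its addition/subtraction gates and `w ≥ 1` the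
product of `max 1 |c|` over its remaining scalar gates.  Then
`n ^ (n - r) ≤ (n choose r) * (2 ^ a * w) ^ 2`, and hence
`(n - r) / 2 * log₂ n - n / 2 ≤ a + log₂ w`. -/
theorem result (n a r : ℕ) (w : ℝ) (S : Set ((Fin n → ℂ) → ℂ)) (hn : 1 ≤ n) (hr : r ≤ n)
    (hC : Circuit n a r w S) (hout : ∀ j : Fin n, dftOut n j ∈ S) :
    (n : ℝ) ^ (n - r) ≤ (n.choose r : ℝ) * (2 ^ a * w) ^ 2 ∧
      ((n : ℝ) - r) / 2 * Real.logb 2 n - (n : ℝ) / 2 ≤ a + Real.logb 2 w := by
  obtain ⟨hw, h⟩ := main_ineq n a r w S hn hr hC hout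
  refine ⟨h, ?_⟩
  have hn0 : (0 : ℝ) < n := by exact_mod_cast hn
  have hw0 : (0 : ℝ) < w := by linarith
  have hch : (n.choose r : ℝ) ≤ 2 ^ n := by
    exact_mod_cast (Nat.choose_le_two_pow n r)
  have h2 : (n : ℝ) ^ (n - r) ≤ 2 ^ n * (2 ^ a * w) ^ 2 :=
    le_trans h (mul_le_mul_of_nonneg_right hch (by positivity))
  have h3 := Real.logb_le_logb_of_le (b := 2) (by norm_num) (by positivity) h2
  rw [Real.logb_mul (by positivity) (by positivity), Real.logb_pow, Real.logb_pow, Real.logb_pow,
    Real.logb_mul (by positivity) (by positivity), Real.logb_pow, Real.logb_self_eq_one (by norm_num),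
    Nat.cast_sub hr] at h3
  push_cast at h3
  linarith

end Vale.Agent.Results.P344.HelpGates
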