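import Vale.Agent.Results.P344.GateLowerBound
import Vale.Agent.Results.P344.HelpGates

/-!
# P344: the two lower bounds for linear circuits computing the DFT, stated together

(1) In the unrestricted model every circuit for `F_n` has at least `2 n - 2` addition/subtraction
gates and at least `n - d(n)` scalar gates, so `L(n) ≥ 3 n - d(n) - 2`.
(2) The determinant (Morgenstern) bound survives `r ≤ n` scalar gates with unrestricted and
uncharged coefficients.
-/

namespace Vale.Agent.Results.P344.AllResults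

theorem result :
    (∀ n : ℕ, 2 ≤ n →
      (∀ (a m : ℕ) (S : Set ((Fin n → ℂ) → ℂ)), GateLowerBound.Circuit n a m S →
        (∀ j : Fin n, GateLowerBound.dftOut n j ∈ S) →
        2 * n ≤ a + 2 ∧ n ≤ m + n.divisors.card) ∧
      (∃ (a m : ℕ) (S : Set ((Fin n → ℂ) → ℂ)), GateLowerBound.Circuit n a m S ∧
        ∀ j : Fin n, GateLowerBound.dftOut n j ∈ S) ∧
      3 * n ≤ GateLowerBound.L n + n.divisors.card + 2 ∧
      3 * n ≤ GateLowerBound.L n + 2 * Nat.sqrt n + 2) ∧
    (∀ (n a r : ℕ) (w : ℝ) (S : Set ((Fin n → ℂ) → ℂ)), 1 ≤ n → r ≤ n →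
      HelpGates.Circuit n a r w S → (∀ j : Fin n, HelpGates.dftOut n j ∈ S) →
      (n : ℝ) ^ (n - r) ≤ (n.choose r : ℝ) * (2 ^ a * w) ^ 2 ∧
        ((n : ℝ) - r) / 2 * Real.logb 2 n - (n : ℝ) / 2 ≤ a + Real.logb 2 w) :=
  ⟨fun n hn => GateLowerBound.result n hn,
    fun n a r w S hn hr hC hout => HelpGates.result n a r w S hn hr hC hout⟩

end Vale.Agent.Results.P344.AllResults
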