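import Mathlib

/-!
# P344: an explicit linear lower bound for the gate complexity of the DFT

Every linear circuit (gates `u + v`, `u - v`, `c * u`, unrestricted complex coefficients) that
computes the unnormalised discrete Fourier transform `F_n` uses at least `2 n - 2`
addition/subtraction gates and at least `n - d(n)` scalar gates, where `d(n)` is the number of
divisors of `n`.  Hence `L(n) ≥ 3 n - d(n) - 2`.
-/

open Polynomial

namespace Vale.Agent.Results.P344.GateLowerBound

/-- The root of unity `exp (2 π i / n)`. -/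
noncomputable def zeta (n : ℕ) : ℂ := Complex.exp (2 * Real.pi * Complex.I / n)

/-- The `j`-th coordinate of `F_n x`, as a function of the input vector `x`. -/
noncomputable def dftOut (n : ℕ) (j : Fin n) : (Fin n → ℂ) → ℂ :=
  fun x => ∑ k : Fin n, zeta n ^ (j.val * k.val) * x k

/-- `Circuit n a m S`: there is a linear circuit (straight-line program) on the inputs
`x_0, …, x_{n-1}` and the constant `0` with exactly `a` gates of the form `u + v` or `u - v` and
exactly `m` gates of the form `c * u` (`c` any complex number), and `S` is the set of all values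
available in it (the constant, the inputs, and the value of every gate), each value being regarded
as a function of the input vector. -/
inductive Circuit (n : ℕ) : ℕ → ℕ → Set ((Fin n → ℂ) → ℂ) → Prop
  | start : Circuit n 0 0
      (insert (fun _ => 0) (Set.range fun k : Fin n => fun x : Fin n → ℂ => x k))
  | add {a m : ℕ} {S : Set ((Fin n → ℂ) → ℂ)} {u v : (Fin n → ℂ) → ℂ} :
      Circuit n a m S → u ∈ S → v ∈ S → Circuit n (a + 1) m (insert (fun x => u x + v x) S)
  | sub {a m : ℕ} {S : Set ((Fin n → ℂ) → ℂ)} {u v : (Fin n → ℂ) → ℂ} :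
      Circuit n a m S → u ∈ S → v ∈ S → Circuit n (a + 1) m (insert (fun x => u x - v x) S)
  | smul {a m : ℕ} {S : Set ((Fin n → ℂ) → ℂ)} {u : (Fin n → ℂ) → ℂ} (c : ℂ) :
      Circuit n a m S → u ∈ S → Circuit n a (m + 1) (insert (fun x => c * u x) S)

/-- `L n`: the least total number of gates of a linear circuit computing `F_n x`. -/
noncomputable def L (n : ℕ) : ℕ :=
  sInf {g | ∃ a m S, g = a + m ∧ Circuit n a m S ∧ ∀ j : Fin n, dftOut n j ∈ S}

/-! ## Number-theoretic part: rational dimension count -/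

lemma conj_step {n : ℕ} (hn : 0 < n) {ζ : ℂ} (hζ : IsPrimitiveRoot ζ n) {ι : Type*} (s : Finset ι)
    (c : ι → ℚ) (e : ι → ℕ) (q : ℚ) (h : (q : ℂ) + ∑ j ∈ s, (c j : ℂ) * ζ ^ (e j) = 0)
    (a : ℕ) (ha : a.Coprime n) : (q : ℂ) + ∑ j ∈ s, (c j : ℂ) * (ζ ^ a) ^ (e j) = 0 := by
  set P : ℚ[X] := C q + ∑ j ∈ s, C (c j) * X ^ (e j) with hP
  have hev : ∀ z : ℂ, aeval z P = (q : ℂ) + ∑ j ∈ s, (c j : ℂ) * z ^ (e j) := by
    intro z
    simp [hP, map_sum]
  have h0 : aeval ζ P = 0 := by rw [hev]; exact h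
  have hdvd : minpoly ℚ ζ ∣ P := minpoly.dvd ℚ ζ h0
  rw [← cyclotomic_eq_minpoly_rat hζ hn] at hdvd
  have hζa : IsPrimitiveRoot (ζ ^ a) n := hζ.pow_of_coprime a ha
  have hroot : aeval (ζ ^ a) (cyclotomic n ℚ) = 0 := by
    have : NeZero (n : ℂ) := ⟨by exact_mod_cast hn.ne'⟩
    have := (isRoot_cyclotomic_iff (R := ℂ) (n := n)).2 hζa
    rw [IsRoot.def] at this
    rw [aeval_def, eval₂_eq_eval_map, map_cyclotomic]
    exact this
  obtain ⟨Q, hQ⟩ := hdvd
  have : aeval (ζ ^ a) P = 0 := by rw [hQ, map_mul, hroot, zero_mul]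
  rw [hev] at this
  exact this

lemma dft_inj {n : ℕ} {ζ : ℂ} (hζ : IsPrimitiveRoot ζ n) (x : Fin n → ℂ)
    (h : ∀ k : Fin n, ∑ j : Fin n, x j * ζ ^ (j.val * k.val) = 0) : x = 0 := by
  have hinj : Function.Injective (fun j : Fin n => ζ ^ j.val) := by
    intro i j hij
    exact Fin.ext (hζ.pow_inj i.2 j.2 hij)
  have hdet := (Matrix.det_vandermonde_ne_zero_iff (v := fun j : Fin n => ζ ^ j.val)).2 hinj
  apply Matrix.eq_zero_of_vecMul_eq_zero hdet
  funext k
  have := h k
  simp only [Matrix.vecMul, dotProduct, Matrix.vandermonde_apply, Pi.zero_apply]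
  rw [← this]
  apply Finset.sum_congr rfl
  intro j _
  rw [pow_mul]

lemma mulmod_inj {n : ℕ} (hn : 0 < n) (a : ℕ) (ha : a.Coprime n) :
    Function.Injective (fun j : Fin n => (⟨(a * j.val) % n, Nat.mod_lt _ hn⟩ : Fin n)) := by
  intro i j hij
  have h1 : (a * i.val) % n = (a * j.val) % n := by
    simpa using congrArg Fin.val hij
  have h2 : i.val ≡ j.val [MOD n] := by
    apply Nat.ModEq.cancel_left_of_coprime (c := a) _ h1
    rw [Nat.gcd_comm]; exact ha
  apply Fin.ext
  have := Nat.ModEq.eq_of_lt_of_lt h2 i.2 j.2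
  exact this

lemma coeff_invariant {n : ℕ} (hn : 0 < n) {ζ : ℂ} (hζ : IsPrimitiveRoot ζ n)
    (c q : Fin n → ℚ)
    (h : ∀ k : Fin n, (q k : ℂ) + ∑ j : Fin n, (c j : ℂ) * ζ ^ (j.val * k.val) = 0)
    (a : ℕ) (ha : a.Coprime n) (j : Fin n) :
    c ⟨(a * j.val) % n, Nat.mod_lt _ hn⟩ = c j := by
  set f : Fin n → Fin n := fun j => ⟨(a * j.val) % n, Nat.mod_lt _ hn⟩ with hf
  have hbij : Function.Bijective f := Finite.injective_iff_bijective.1 (mulmod_inj hn a ha)
  set σ : Fin n ≃ Fin n := Equiv.ofBijective f hbij with hσ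
  have key : (fun j' : Fin n => ((c (σ.symm j') : ℂ) - (c j' : ℂ))) = 0 := by
    apply dft_inj hζ
    intro k
    have h1 := conj_step hn hζ Finset.univ c (fun j => j.val * k.val) (q k) (h k) a ha
    have h2 := h k
    have h3 : ∑ j' : Fin n, (c (σ.symm j') : ℂ) * ζ ^ (j'.val * k.val)
        = ∑ j : Fin n, (c j : ℂ) * (ζ ^ a) ^ (j.val * k.val) := by
      rw [← Equiv.sum_comp σ]
      apply Finset.sum_congr rfl
      intro j _
      rw [Equiv.symm_apply_apply]
      congr 1
      have : (σ j).val = (a * j.val) % n := rfl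
      rw [this, pow_mul ζ _ k.val, ← pow_mul ζ a, ← mul_assoc, pow_mul ζ (a * j.val) k.val]
      congr 1
      rw [pow_eq_pow_mod (a * j.val) hζ.pow_eq_one]
    simp only [sub_mul, Finset.sum_sub_distrib]
    rw [h3]
    linear_combination h1 - h2
  have := congrFun key (σ j)
  simp only [Equiv.symm_apply_apply, Pi.zero_apply] at this
  have h4 : (c j : ℂ) = (c (σ j) : ℂ) := by linear_combination this
  have h5 : c j = c (σ j) := by exact_mod_cast h4
  exact h5.symm

lemma exists_unit_rep {n : ℕ} (hn : 0 < n) (j : ℕ) :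
    ∃ a : ℕ, a.Coprime n ∧ (a * Nat.gcd j n) % n = j % n := by
  have : NeZero n := ⟨hn.ne'⟩
  set g := Nat.gcd j n with hg
  have hgpos : 0 < g := Nat.gcd_pos_of_pos_right _ hn
  obtain ⟨n', hn'⟩ : g ∣ n := Nat.gcd_dvd_right j n
  obtain ⟨j', hj'⟩ : g ∣ j := Nat.gcd_dvd_left j n
  have hcop : Nat.Coprime j' n' := by
    have := Nat.coprime_div_gcd_div_gcd (m := j) (n := n) hgpos
    rw [← hg] at this
    rwa [hj', hn', Nat.mul_div_cancel_left _ hgpos, Nat.mul_div_cancel_left _ hgpos] at this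
  have hdvd : n' ∣ n := ⟨g, by rw [hn']; ring⟩
  obtain ⟨u, hu⟩ := ZMod.unitsMap_surjective hdvd (ZMod.unitOfCoprime j' hcop)
  refine ⟨(u : ZMod n).val, ZMod.val_coe_unit_coprime u, ?_⟩
  have h1 : ((u : ZMod n).val : ZMod n') = (j' : ZMod n') := by
    have := congrArg (fun x : (ZMod n')ˣ => (x : ZMod n')) hu
    simp only [ZMod.unitsMap_def, Units.coe_map, MonoidHom.coe_coe, ZMod.coe_unitOfCoprime] at this
    rw [← this]
    simp [ZMod.natCast_val]
  have h2 : (u : ZMod n).val ≡ j' [MOD n'] := (ZMod.natCast_eq_natCast_iff _ _ _).1 h1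
  have h3 : g * (u : ZMod n).val ≡ g * j' [MOD (g * n')] := Nat.ModEq.mul_left' g h2
  rw [← hn', ← hj'] at h3
  rw [mul_comm]
  exact h3

lemma rank_lower {n : ℕ} (hn : 0 < n) {ζ : ℂ} (hζ : IsPrimitiveRoot ζ n)
    (B : Finset (Fin n → ℂ))
    (hB1 : ∀ k : Fin n, (Pi.single k 1 : Fin n → ℂ) ∈ Submodule.span ℚ (B : Set (Fin n → ℂ)))
    (hB2 : ∀ j : Fin n,
      (fun k : Fin n => ζ ^ (j.val * k.val)) ∈ Submodule.span ℚ (B : Set (Fin n → ℂ))) :
    2 * n ≤ B.card + n.divisors.card := by
  classical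
  set e : Fin n → (Fin n → ℂ) := fun k => Pi.single k 1 with he
  set r : Fin n → (Fin n → ℂ) := fun j => fun k => ζ ^ (j.val * k.val) with hr
  set Θ : ((Fin n → ℚ) × (Fin n → ℚ)) →ₗ[ℚ] (Fin n → ℂ) :=
    (Fintype.linearCombination ℚ e).coprod (Fintype.linearCombination ℚ r) with hΘ
  have hΘapp : ∀ (q c : Fin n → ℚ) (k : Fin n),
      Θ (q, c) k = (q k : ℂ) + ∑ j : Fin n, (c j : ℂ) * ζ ^ (j.val * k.val) := by
    intro q c k
    simp only [hΘ, LinearMap.coprod_apply, Fintype.linearCombination_apply, Pi.add_apply,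
      Finset.sum_apply, Pi.smul_apply, he, hr]
    congr 1
    rw [Finset.sum_eq_single k]
    · simp [Rat.smul_def]
    · intro b _ hb
      simp [hb.symm]
    · simp
  have hrange : LinearMap.range Θ ≤ Submodule.span ℚ (B : Set (Fin n → ℂ)) := by
    rintro _ ⟨⟨q, c⟩, rfl⟩
    simp only [hΘ, LinearMap.coprod_apply, Fintype.linearCombination_apply]
    apply Submodule.add_mem
    · exact Submodule.sum_mem _ (fun k _ => Submodule.smul_mem _ _ (hB1 k))
    · exact Submodule.sum_mem _ (fun j _ => Submodule.smul_mem _ _ (hB2 j))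
  have h1 : Module.finrank ℚ (LinearMap.range Θ) ≤ B.card := by
    calc Module.finrank ℚ (LinearMap.range Θ)
        ≤ Module.finrank ℚ (Submodule.span ℚ (B : Set (Fin n → ℂ))) :=
          Submodule.finrank_mono hrange
      _ ≤ B.card := finrank_span_finset_le_card B
  set Ψ : ((Fin n → ℚ) × (Fin n → ℚ)) →ₗ[ℚ] (n.divisors → ℚ) :=
    { toFun := fun p d => p.2 ⟨d.val % n, Nat.mod_lt _ hn⟩
      map_add' := by intro x y; rfl
      map_smul' := by intro a x; rfl } with hΨ
  have hinj : Function.Injective (Ψ.comp (LinearMap.ker Θ).subtype) := by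
    rw [← LinearMap.ker_eq_bot, LinearMap.ker_eq_bot']
    rintro ⟨⟨q, c⟩, hmem⟩ hz
    have hker : ∀ k : Fin n, (q k : ℂ) + ∑ j : Fin n, (c j : ℂ) * ζ ^ (j.val * k.val) = 0 := by
      intro k
      rw [← hΘapp]
      rw [LinearMap.mem_ker] at hmem
      rw [hmem]; rfl
    have hz' : ∀ d ∈ n.divisors, c ⟨d % n, Nat.mod_lt _ hn⟩ = 0 := by
      intro d hd
      exact congrFun hz ⟨d, hd⟩
    have hc : c = 0 := by
      funext j
      obtain ⟨a, ha, hag⟩ := exists_unit_rep hn j.val
      have hg : Nat.gcd j.val n ∈ n.divisors :=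
        Nat.mem_divisors.2 ⟨Nat.gcd_dvd_right _ _, hn.ne'⟩
      have h0 := hz' _ hg
      have hinv := coeff_invariant hn hζ c q hker a ha ⟨Nat.gcd j.val n % n, Nat.mod_lt _ hn⟩
      have hidx : (⟨(a * (Nat.gcd j.val n % n)) % n, Nat.mod_lt _ hn⟩ : Fin n) = j := by
        apply Fin.ext
        simp only
        rw [Nat.mul_mod, Nat.mod_mod, ← Nat.mul_mod, hag, Nat.mod_eq_of_lt j.2]
      rw [hidx, h0] at hinv
      simpa using hinv
    have hq : q = 0 := by
      funext k
      have := hker k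
      rw [hc] at this
      simp at this
      simpa using this
    simp [hc, hq]
  have h2 : Module.finrank ℚ (LinearMap.ker Θ) ≤ n.divisors.card := by
    have := LinearMap.finrank_le_finrank_of_injective hinj
    simpa using this
  have h3 := LinearMap.finrank_range_add_finrank_ker Θ
  have h4 : Module.finrank ℚ ((Fin n → ℚ) × (Fin n → ℚ)) = 2 * n := by
    simp [two_mul]
  omega

/-! ## Combinatorial part: invariants of a circuit -/

lemma card_edges {n : ℕ} (E : Finset (Fin n × Fin n))
    (h : ∀ z : Fin n → ℚ, (∀ p ∈ E, z p.1 = z p.2) → ∀ i k, z i = z k) : n ≤ E.card + 1 := by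
  classical
  set D : (Fin n → ℚ) →ₗ[ℚ] (E → ℚ) :=
    { toFun := fun z p => z p.val.1 - z p.val.2
      map_add' := by intro x y; funext p; simp; ring
      map_smul' := by intro a x; funext p; simp; ring } with hD
  have hker : LinearMap.ker D ≤ Submodule.span ℚ {(fun _ => 1 : Fin n → ℚ)} := by
    intro z hz
    rw [LinearMap.mem_ker] at hz
    have hz' : ∀ p ∈ E, z p.1 = z p.2 := by
      intro p hp
      have := congrFun hz ⟨p, hp⟩
      simp only [hD, LinearMap.coe_mk, AddHom.coe_mk, Pi.zero_apply] at this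
      linarith
    have hconst := h z hz'
    rw [Submodule.mem_span_singleton]
    rcases Nat.eq_zero_or_pos n with hn | hn
    · subst hn
      exact ⟨0, by funext i; exact i.elim0⟩
    · refine ⟨z ⟨0, hn⟩, ?_⟩
      funext i
      simp [hconst i ⟨0, hn⟩]
  have h1 : Module.finrank ℚ (LinearMap.ker D) ≤ 1 := by
    calc Module.finrank ℚ (LinearMap.ker D)
        ≤ Module.finrank ℚ (Submodule.span ℚ {(fun _ => 1 : Fin n → ℚ)}) :=
          Submodule.finrank_mono hker
      _ ≤ 1 := by
        have := finrank_span_le_card (R := ℚ) ({(fun _ => 1 : Fin n → ℚ)} : Set (Fin n → ℚ))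
        simpa using this
  have h2 : Module.finrank ℚ (LinearMap.range D) ≤ E.card := by
    have := Submodule.finrank_le (LinearMap.range D)
    simpa using this
  have h3 := LinearMap.finrank_range_add_finrank_ker D
  have h4 : Module.finrank ℚ (Fin n → ℚ) = n := by simp
  omega

def Inv1 {n : ℕ} (T : Set (Fin n → ℂ)) (m : ℕ) : Prop :=
  ∃ B : Finset (Fin n → ℂ), B.card ≤ n + m ∧ ∀ t ∈ T, t ∈ Submodule.span ℚ (B : Set (Fin n → ℂ))

def Inv2 {n : ℕ} (T : Set (Fin n → ℂ)) (a : ℕ) : Prop :=
  ∃ E : Finset (Fin n × Fin n), E.card ≤ a ∧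
    ∀ z : Fin n → ℚ, (∀ p ∈ E, z p.1 = z p.2) → ∀ t ∈ T, ∀ i k, t i ≠ 0 → t k ≠ 0 → z i = z k

def Inv3 {n : ℕ} (T : Set (Fin n → ℂ)) (a : ℕ) : Prop :=
  (∃ t ∈ T, ∀ i, t i ≠ 0) → ∃ R : Finset (Fin n → ℂ), R.card + n ≤ a + 2 ∧
    ∀ t ∈ T, (∀ i, t i ≠ 0) → ∃ r ∈ R, ∃ c : ℂ, t = c • r

lemma Inv1.step_lin {n m : ℕ} {T : Set (Fin n → ℂ)} (h : Inv1 T m) {w : Fin n → ℂ}
    (hw : ∀ B : Finset (Fin n → ℂ), (∀ t ∈ T, t ∈ Submodule.span ℚ (B : Set (Fin n → ℂ))) →
      w ∈ Submodule.span ℚ (B : Set (Fin n → ℂ))) : Inv1 (insert w T) m := by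
  obtain ⟨B, hB, hT⟩ := h
  refine ⟨B, hB, ?_⟩
  intro t ht
  rcases Set.mem_insert_iff.1 ht with rfl | ht
  · exact hw B hT
  · exact hT t ht

lemma Inv1.step_new {n m : ℕ} {T : Set (Fin n → ℂ)} (h : Inv1 T m) (w : Fin n → ℂ) :
    Inv1 (insert w T) (m + 1) := by
  classical
  obtain ⟨B, hB, hT⟩ := h
  refine ⟨insert w B, ?_, ?_⟩
  · have := Finset.card_insert_le w B
    omega
  · intro t ht
    rcases Set.mem_insert_iff.1 ht with rfl | ht
    · apply Submodule.subset_span
      simp
    · have hsub : Submodule.span ℚ (B : Set (Fin n → ℂ)) ≤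
          Submodule.span ℚ ((insert w B : Finset (Fin n → ℂ)) : Set (Fin n → ℂ)) := by
        apply Submodule.span_mono
        simp
      exact hsub (hT t ht)

lemma Inv2.step_add {n a : ℕ} {T : Set (Fin n → ℂ)} (h : Inv2 T a) {u v w : Fin n → ℂ}
    (hu : u ∈ T) (hv : v ∈ T) (hw : ∀ i, w i ≠ 0 → u i ≠ 0 ∨ v i ≠ 0) :
    Inv2 (insert w T) (a + 1) := by
  classical
  obtain ⟨E, hE, hT⟩ := h
  by_cases hu0 : ∃ i0, u i0 ≠ 0
  · by_cases hv0 : ∃ k0, v k0 ≠ 0
    · obtain ⟨i0, hi0⟩ := hu0
      obtain ⟨k0, hk0⟩ := hv0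
      refine ⟨insert (i0, k0) E, ?_, ?_⟩
      · have := Finset.card_insert_le (i0, k0) E
        omega
      · intro z hz t ht i k hi hk
        have hzE : ∀ p ∈ E, z p.1 = z p.2 := fun p hp => hz p (Finset.mem_insert_of_mem hp)
        have hz0 : z i0 = z k0 := hz (i0, k0) (Finset.mem_insert_self _ _)
        rcases Set.mem_insert_iff.1 ht with rfl | ht
        · have key : ∀ l, t l ≠ 0 → z l = z i0 := by
            intro l hl
            rcases hw l hl with h1 | h1
            · exact hT z hzE u hu l i0 h1 hi0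
            · rw [hz0]; exact hT z hzE v hv l k0 h1 hk0
          rw [key i hi, key k hk]
        · exact hT z hzE t ht i k hi hk
    · have hv0' : ∀ k0, v k0 = 0 := by
        intro k0
        by_contra hk
        exact hv0 ⟨k0, hk⟩
      refine ⟨E, by omega, ?_⟩
      intro z hz t ht i k hi hk
      rcases Set.mem_insert_iff.1 ht with rfl | ht
      · have h1 : u i ≠ 0 := by
          rcases hw i hi with h | h
          · exact h
          · exact absurd (hv0' i) h
        have h2 : u k ≠ 0 := by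
          rcases hw k hk with h | h
          · exact h
          · exact absurd (hv0' k) h
        exact hT z hz u hu i k h1 h2
      · exact hT z hz t ht i k hi hk
  · have hu0' : ∀ k0, u k0 = 0 := by
      intro k0
      by_contra hk
      exact hu0 ⟨k0, hk⟩
    refine ⟨E, by omega, ?_⟩
    intro z hz t ht i k hi hk
    rcases Set.mem_insert_iff.1 ht with rfl | ht
    · have h1 : v i ≠ 0 := by
        rcases hw i hi with h | h
        · exact absurd (hu0' i) h
        · exact h
      have h2 : v k ≠ 0 := by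
        rcases hw k hk with h | h
        · exact absurd (hu0' k) h
        · exact h
      exact hT z hz v hv i k h1 h2
    · exact hT z hz t ht i k hi hk

lemma Inv2.step_smul {n a : ℕ} {T : Set (Fin n → ℂ)} (h : Inv2 T a) {u w : Fin n → ℂ}
    (hu : u ∈ T) (hw : ∀ i, w i ≠ 0 → u i ≠ 0) : Inv2 (insert w T) a := by
  obtain ⟨E, hE, hT⟩ := h
  refine ⟨E, hE, ?_⟩
  intro z hz t ht i k hi hk
  rcases Set.mem_insert_iff.1 ht with rfl | ht
  · exact hT z hz u hu i k (hw i hi) (hw k hk)
  · exact hT z hz t ht i k hi hk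

lemma Inv2.full {n a : ℕ} {T : Set (Fin n → ℂ)} (h : Inv2 T a) (hf : ∃ t ∈ T, ∀ i, t i ≠ 0) :
    n ≤ a + 1 := by
  obtain ⟨E, hE, hT⟩ := h
  obtain ⟨t, ht, hfull⟩ := hf
  have := card_edges E (fun z hz i k => hT z hz t ht i k (hfull i) (hfull k))
  omega

lemma Inv3.step_add {n a : ℕ} {T : Set (Fin n → ℂ)} (h : Inv3 T a) (w : Fin n → ℂ)
    (h2 : Inv2 (insert w T) (a + 1)) : Inv3 (insert w T) (a + 1) := by
  classical
  intro hf
  by_cases hold : ∃ t ∈ T, ∀ i, t i ≠ 0
  · obtain ⟨R, hR, hT⟩ := h hold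
    refine ⟨insert w R, ?_, ?_⟩
    · have := Finset.card_insert_le w R
      omega
    · intro t ht hfull
      rcases Set.mem_insert_iff.1 ht with rfl | ht
      · exact ⟨t, Finset.mem_insert_self _ _, 1, by simp⟩
      · obtain ⟨r, hr, c, hc⟩ := hT t ht hfull
        exact ⟨r, Finset.mem_insert_of_mem hr, c, hc⟩
  · have hn := h2.full hf
    refine ⟨{w}, ?_, ?_⟩
    · simp; omega
    · intro t ht hfull
      rcases Set.mem_insert_iff.1 ht with rfl | ht
      · exact ⟨t, Finset.mem_singleton_self _, 1, by simp⟩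
      · exact absurd ⟨t, ht, hfull⟩ hold

lemma Inv3.step_smul {n a : ℕ} {T : Set (Fin n → ℂ)} (h : Inv3 T a) {u : Fin n → ℂ} (hu : u ∈ T)
    (c : ℂ) : Inv3 (insert (c • u) T) a := by
  intro hf
  have hu_of : (∀ i, (c • u) i ≠ 0) → ∀ i, u i ≠ 0 := by
    intro hfull i hi
    apply hfull i
    simp [hi]
  have hold : ∃ t ∈ T, ∀ i, t i ≠ 0 := by
    obtain ⟨t, ht, hfull⟩ := hf
    rcases Set.mem_insert_iff.1 ht with rfl | ht
    · exact ⟨u, hu, hu_of hfull⟩
    · exact ⟨t, ht, hfull⟩
  obtain ⟨R, hR, hT⟩ := h hold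
  refine ⟨R, hR, ?_⟩
  intro t ht hfull
  rcases Set.mem_insert_iff.1 ht with rfl | ht
  · obtain ⟨r, hr, c', hc'⟩ := hT u hu (hu_of hfull)
    exact ⟨r, hr, c * c', by rw [hc', smul_smul]⟩
  · exact hT t ht hfull

/-- The coefficient vector of a value: its values at the standard basis vectors. -/
noncomputable def cf {n : ℕ} (u : (Fin n → ℂ) → ℂ) : Fin n → ℂ := fun k => u (Pi.single k 1)

lemma circuit_inv {n : ℕ} (hn : 2 ≤ n) {a m : ℕ} {S : Set ((Fin n → ℂ) → ℂ)}
    (h : Circuit n a m S) : Inv1 (cf '' S) m ∧ Inv2 (cf '' S) a ∧ Inv3 (cf '' S) a := by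
  classical
  induction h with
  | start =>
    have hmem : ∀ t ∈ cf '' (insert (fun _ => (0 : ℂ))
        (Set.range fun k : Fin n => fun x : Fin n → ℂ => x k)),
        t = 0 ∨ ∃ k : Fin n, t = Pi.single k 1 := by
      rintro t ⟨u, hu, rfl⟩
      rcases Set.mem_insert_iff.1 hu with rfl | ⟨k, rfl⟩
      · left; rfl
      · right
        refine ⟨k, ?_⟩
        funext l
        simp only [cf]
        rw [Pi.single_apply, Pi.single_apply]
        simp [eq_comm]
    refine ⟨?_, ?_, ?_⟩
    · refine ⟨Finset.univ.image (fun k : Fin n => (Pi.single k 1 : Fin n → ℂ)), ?_, ?_⟩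
      · have := Finset.card_image_le (s := (Finset.univ : Finset (Fin n)))
          (f := fun k : Fin n => (Pi.single k 1 : Fin n → ℂ))
        simpa using this
      · intro t ht
        rcases hmem t ht with rfl | ⟨k, rfl⟩
        · exact Submodule.zero_mem _
        · apply Submodule.subset_span
          simp
    · refine ⟨∅, by simp, ?_⟩
      intro z _ t ht i k hi hk
      rcases hmem t ht with rfl | ⟨l, rfl⟩
      · exact absurd rfl hi
      · have h1 : i = l := by
          by_contra hne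
          exact hi (by simp [hne])
        have h2 : k = l := by
          by_contra hne
          exact hk (by simp [hne])
        rw [h1, h2]
    · rintro ⟨t, ht, hfull⟩
      exfalso
      rcases hmem t ht with rfl | ⟨l, rfl⟩
      · exact hfull ⟨0, by omega⟩ rfl
      · by_cases hl : l = ⟨0, by omega⟩
        · apply hfull ⟨1, by omega⟩
          rw [hl]
          simp
        · apply hfull ⟨0, by omega⟩
          rw [Pi.single_apply, if_neg (Ne.symm hl)]
  | @add a m S u v _ hu hv ih =>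
    obtain ⟨i1, i2, i3⟩ := ih
    have hcf : cf (fun x => u x + v x) = cf u + cf v := rfl
    rw [Set.image_insert_eq, hcf]
    have hu' := Set.mem_image_of_mem cf hu
    have hv' := Set.mem_image_of_mem cf hv
    have j2 : Inv2 (insert (cf u + cf v) (cf '' S)) (a + 1) := by
      apply i2.step_add hu' hv'
      intro i hi
      by_contra hcon
      rw [not_or, not_not, not_not] at hcon
      apply hi
      simp [hcon.1, hcon.2]
    exact ⟨i1.step_lin (fun B hB => Submodule.add_mem _ (hB _ hu') (hB _ hv')), j2,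
      i3.step_add _ j2⟩
  | @sub a m S u v _ hu hv ih =>
    obtain ⟨i1, i2, i3⟩ := ih
    have hcf : cf (fun x => u x - v x) = cf u - cf v := rfl
    rw [Set.image_insert_eq, hcf]
    have hu' := Set.mem_image_of_mem cf hu
    have hv' := Set.mem_image_of_mem cf hv
    have j2 : Inv2 (insert (cf u - cf v) (cf '' S)) (a + 1) := by
      apply i2.step_add hu' hv'
      intro i hi
      by_contra hcon
      rw [not_or, not_not, not_not] at hcon
      apply hi
      simp [hcon.1, hcon.2]
    exact ⟨i1.step_lin (fun B hB => Submodule.sub_mem _ (hB _ hu') (hB _ hv')), j2,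
      i3.step_add _ j2⟩
  | @smul a m S u c _ hu ih =>
    obtain ⟨i1, i2, i3⟩ := ih
    have hcf : cf (fun x => c * u x) = c • cf u := rfl
    rw [Set.image_insert_eq, hcf]
    have hu' := Set.mem_image_of_mem cf hu
    refine ⟨i1.step_new _, i2.step_smul hu' ?_, i3.step_smul hu' c⟩
    intro i hi hzero
    apply hi
    simp [hzero]

lemma cf_dftOut (n : ℕ) (j : Fin n) :
    cf (dftOut n j) = fun k : Fin n => zeta n ^ (j.val * k.val) := by
  classical
  funext k
  simp only [cf, dftOut]
  rw [Finset.sum_eq_single k]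
  · simp
  · intro b _ hb
    simp [hb]
  · simp

lemma Circuit.base_mem {n a m : ℕ} {S : Set ((Fin n → ℂ) → ℂ)} (h : Circuit n a m S) :
    (fun _ => (0 : ℂ)) ∈ S ∧ ∀ k : Fin n, (fun x : Fin n → ℂ => x k) ∈ S := by
  induction h with
  | start => exact ⟨Set.mem_insert _ _, fun k => Set.mem_insert_of_mem _ ⟨k, rfl⟩⟩
  | add _ _ _ ih => exact ⟨Set.mem_insert_of_mem _ ih.1, fun k => Set.mem_insert_of_mem _ (ih.2 k)⟩
  | sub _ _ _ ih => exact ⟨Set.mem_insert_of_mem _ ih.1, fun k => Set.mem_insert_of_mem _ (ih.2 k)⟩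
  | smul _ _ _ ih => exact ⟨Set.mem_insert_of_mem _ ih.1, fun k => Set.mem_insert_of_mem _ (ih.2 k)⟩

/-- The two separate lower bounds. -/
lemma lower {n : ℕ} (hn : 2 ≤ n) {a m : ℕ} {S : Set ((Fin n → ℂ) → ℂ)}
    (h : Circuit n a m S) (hout : ∀ j : Fin n, dftOut n j ∈ S) :
    2 * n ≤ a + 2 ∧ n ≤ m + n.divisors.card := by
  classical
  have hζ : IsPrimitiveRoot (zeta n) n := Complex.isPrimitiveRoot_exp n (by omega)
  obtain ⟨i1, _, i3⟩ := circuit_inv hn h
  have hrow : ∀ j : Fin n, (fun k : Fin n => zeta n ^ (j.val * k.val)) ∈ cf '' S := by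
    intro j
    rw [← cf_dftOut]
    exact Set.mem_image_of_mem cf (hout j)
  have hne : ∀ (j k : Fin n), zeta n ^ (j.val * k.val) ≠ 0 :=
    fun j k => pow_ne_zero _ (hζ.ne_zero (by omega))
  constructor
  · obtain ⟨R, hR, hT⟩ := i3 ⟨_, hrow ⟨0, by omega⟩, fun i => hne _ i⟩
    choose f hfR c hc using fun j : Fin n => hT _ (hrow j) (fun i => hne j i)
    have hinj : Function.Injective f := by
      intro j j' hjj
      have e0 := congrFun (hc j) ⟨0, by omega⟩
      have e0' := congrFun (hc j') ⟨0, by omega⟩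
      have e1 := congrFun (hc j) ⟨1, by omega⟩
      have e1' := congrFun (hc j') ⟨1, by omega⟩
      simp only [Pi.smul_apply, smul_eq_mul, mul_zero, pow_zero, mul_one] at e0 e0' e1 e1'
      rw [hjj] at e0 e1
      have hr0 : f j' ⟨0, by omega⟩ ≠ 0 := by
        intro hz
        rw [hz, mul_zero] at e0
        exact one_ne_zero e0
      have hcc : c j = c j' := by
        apply mul_right_cancel₀ hr0
        rw [← e0, ← e0']
      have : zeta n ^ j.val = zeta n ^ j'.val := by rw [e1, e1', hcc]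
      exact Fin.ext (hζ.pow_inj j.2 j'.2 this)
    have hcard : n ≤ R.card := by
      have := Finset.card_le_card_of_injOn (s := (Finset.univ : Finset (Fin n))) (t := R) f
        (fun j _ => hfR j) (fun x _ y _ hxy => hinj hxy)
      simpa using this
    omega
  · obtain ⟨B, hB, hT⟩ := i1
    have hsingle : ∀ k : Fin n, (Pi.single k 1 : Fin n → ℂ) ∈ cf '' S := by
      intro k
      refine ⟨fun x => x k, h.base_mem.2 k, ?_⟩
      funext l
      simp only [cf]
      rw [Pi.single_apply, Pi.single_apply]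
      simp [eq_comm]
    have := rank_lower (by omega) hζ B (fun k => hT _ (hsingle k)) (fun j => hT _ (hrow j))
    omega

/-! ## Existence of a circuit, so that `L n` is a genuine minimum -/

lemma Circuit.extend_form {n a m : ℕ} {S : Set ((Fin n → ℂ) → ℂ)} (h : Circuit n a m S)
    (c : Fin n → ℂ) (s : Finset (Fin n)) :
    ∃ a' m' S', Circuit n a' m' S' ∧ S ⊆ S' ∧ (fun x : Fin n → ℂ => ∑ k ∈ s, c k * x k) ∈ S' := by
  classical
  induction s using Finset.induction_on with
  | empty => exact ⟨a, m, S, h, subset_rfl, by simpa using h.base_mem.1⟩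
  | insert k s hk ih =>
    obtain ⟨a', m', S', h', hsub, hmem⟩ := ih
    have h1 := Circuit.smul (c k) h' (h'.base_mem.2 k)
    have h2 := Circuit.add h1 (Set.mem_insert _ _) (Set.mem_insert_of_mem _ hmem)
    refine ⟨_, _, _, h2, ?_, ?_⟩
    · exact hsub.trans ((Set.subset_insert _ _).trans (Set.subset_insert _ _))
    · have : (fun x : Fin n → ℂ => ∑ k ∈ insert k s, c k * x k)
          = (fun x : Fin n → ℂ => c k * x k + ∑ k ∈ s, c k * x k) := by
        funext x
        rw [Finset.sum_insert hk]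
      rw [this]
      exact Set.mem_insert _ _

lemma exists_circuit (n : ℕ) (J : Finset (Fin n)) :
    ∃ a m S, Circuit n a m S ∧ ∀ j ∈ J, dftOut n j ∈ S := by
  classical
  induction J using Finset.induction_on with
  | empty => exact ⟨0, 0, _, Circuit.start, by simp⟩
  | insert j J _ ih =>
    obtain ⟨a, m, S, h, hJ⟩ := ih
    obtain ⟨a', m', S', h', hsub, hmem⟩ :=
      h.extend_form (fun k => zeta n ^ (j.val * k.val)) Finset.univ
    refine ⟨a', m', S', h', ?_⟩
    intro i hi
    rcases Finset.mem_insert.1 hi with rfl | hi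
    · exact hmem
    · exact hsub (hJ i hi)

lemma card_divisors_le_sqrt (n : ℕ) : n.divisors.card ≤ 2 * Nat.sqrt n := by
  classical
  set s := Nat.sqrt n with hs
  have hsplit : n.divisors.card = (n.divisors.filter (fun d => d ≤ s)).card
      + (n.divisors.filter (fun d => ¬ d ≤ s)).card :=
    (Finset.card_filter_add_card_filter_not (s := n.divisors) (fun d => d ≤ s)).symm
  have h1 : (n.divisors.filter (fun d => d ≤ s)).card ≤ s := by
    have hsub : n.divisors.filter (fun d => d ≤ s) ⊆ Finset.Icc 1 s := by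
      intro d hd
      rw [Finset.mem_filter] at hd
      rw [Finset.mem_Icc]
      exact ⟨Nat.pos_of_mem_divisors hd.1, hd.2⟩
    have := Finset.card_le_card hsub
    simpa using this
  have h2 : (n.divisors.filter (fun d => ¬ d ≤ s)).card ≤ s := by
    have : (n.divisors.filter (fun d => ¬ d ≤ s)).card ≤ (Finset.Icc 1 s).card := by
      apply Finset.card_le_card_of_injOn (fun d => n / d)
      · intro d hd
        rw [Finset.mem_coe, Finset.mem_filter] at hd
        obtain ⟨hd1, hd2⟩ := hd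
        have hdvd := Nat.dvd_of_mem_divisors hd1
        have hn0 : n ≠ 0 := (Nat.mem_divisors.1 hd1).2
        have hmul : d * (n / d) = n := Nat.mul_div_cancel' hdvd
        rw [Finset.mem_coe, Finset.mem_Icc]
        constructor
        · rcases Nat.eq_zero_or_pos (n / d) with h0 | h0
          · rw [h0, mul_zero] at hmul; exact absurd hmul.symm hn0
          · exact h0
        · by_contra hcon
          simp only at hcon
          have hlt : n < (s + 1) * (s + 1) := Nat.lt_succ_sqrt n
          have : (s + 1) * (s + 1) ≤ d * (n / d) := Nat.mul_le_mul (by omega) (by omega)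
          omega
      · intro d hd d' hd' hdd
        rw [Finset.mem_coe, Finset.mem_filter] at hd hd'
        have hdvd := Nat.dvd_of_mem_divisors hd.1
        have hdvd' := Nat.dvd_of_mem_divisors hd'.1
        have hn0 : n ≠ 0 := (Nat.mem_divisors.1 hd.1).2
        have hmul : d * (n / d) = n := Nat.mul_div_cancel' hdvd
        have hmul' : d' * (n / d') = n := Nat.mul_div_cancel' hdvd'
        simp only at hdd
        rw [← hdd] at hmul'
        have hpos : 0 < n / d := by
          rcases Nat.eq_zero_or_pos (n / d) with h0 | h0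
          · rw [h0, mul_zero] at hmul; exact absurd hmul.symm hn0
          · exact h0
        exact Nat.eq_of_mul_eq_mul_right hpos (hmul.trans hmul'.symm)
    simpa using this
  omega

/-- **Main result.**  For every `n ≥ 2`: every linear circuit computing the unnormalised DFT `F_n`
has at least `2 n - 2` addition/subtraction gates and at least `n - d(n)` scalar gates
(`d(n)` the number of divisors of `n`), such circuits exist, and therefore
`L(n) ≥ 3 n - d(n) - 2 ≥ 3 n - 2 ⌊√n⌋ - 2`. -/
theorem result (n : ℕ) (hn : 2 ≤ n) :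
    (∀ (a m : ℕ) (S : Set ((Fin n → ℂ) → ℂ)), Circuit n a m S → (∀ j : Fin n, dftOut n j ∈ S) →
      2 * n ≤ a + 2 ∧ n ≤ m + n.divisors.card) ∧
    (∃ (a m : ℕ) (S : Set ((Fin n → ℂ) → ℂ)), Circuit n a m S ∧ ∀ j : Fin n, dftOut n j ∈ S) ∧
    3 * n ≤ L n + n.divisors.card + 2 ∧
    3 * n ≤ L n + 2 * Nat.sqrt n + 2 := by
  have key : 3 * n ≤ L n + n.divisors.card + 2 := ?_
  · refine ⟨fun a m S h hout => lower hn h hout, ?_, key, ?_⟩
    · obtain ⟨a, m, S, h, hJ⟩ := exists_circuit n Finset.univ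
      exact ⟨a, m, S, h, fun j => hJ j (Finset.mem_univ j)⟩
    · have := card_divisors_le_sqrt n
      omega
  · have hne : {g | ∃ a m S, g = a + m ∧ Circuit n a m S ∧
        ∀ j : Fin n, dftOut n j ∈ S}.Nonempty := by
      obtain ⟨a, m, S, h, hJ⟩ := exists_circuit n Finset.univ
      exact ⟨a + m, a, m, S, rfl, h, fun j => hJ j (Finset.mem_univ j)⟩
    obtain ⟨a, m, S, hg, h, hout⟩ := Nat.sInf_mem hne
    have := lower hn h hout
    have hL : L n = a + m := hg
    omega

end Vale.Agent.Results.P344.GateLowerBound
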